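import Mathlib

/-! P266: definitions shared by the files of the counterexample.
See notes/P266.md for the plan. -/

namespace Vale.Agent.P266

open MvPolynomial

/-- The polynomial ring in the two affine coordinates `z`, `u` of the plane. -/
abbrev PP : Type := MvPolynomial (Fin 2) ℂ

noncomputable def zz : PP := X 0
noncomputable def uu : PP := X 1

/-- Span of `1, z`. -/
noncomputable def L0 : Submodule ℂ PP := Submodule.span ℂ {1, zz}
/-- Span of `1, z, u`; its `d`-th power is the space of polynomials of degree at most `d`. -/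
noncomputable def L1 : Submodule ℂ PP := Submodule.span ℂ {1, zz, uu}
/-- Polynomials of degree at most `d` without the monomial `u ^ d` (used for `1 ≤ d`). -/
noncomputable def Low (d : ℕ) : Submodule ℂ PP := L0 * L1 ^ (d - 1)
/-- `F` has degree at most `d` and its coefficient of `u ^ d` is `c`. -/
def Top (d : ℕ) (c : ℂ) (F : PP) : Prop := F - C c * uu ^ d ∈ Low d

/-- A polynomial in `u` alone. -/
noncomputable def pu (f : Polynomial ℂ) : PP := Polynomial.aeval uu f

/-- The equation of the line `z = q`. -/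
noncomputable def ln (q : ℂ) : PP := zz - C q
/-- The maximal ideal of the point `(q, g)`. -/
noncomputable def mx (q g : ℂ) : Ideal PP := Ideal.span {zz - C q, uu - C g}

/-- Product of the four lines. -/
noncomputable def Pi4 (q : Fin 4 → ℂ) : PP := ∏ i, ln (q i)
/-- Product of the three lines other than the `i`-th. -/
noncomputable def cof (q : Fin 4 → ℂ) (i : Fin 4) : PP := ∏ k ∈ Finset.univ.erase i, ln (q k)
/-- The `z`-derivative of `Pi4`. -/
noncomputable def dPi (q : Fin 4 → ℂ) : PP := ∑ i, cof q i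
/-- The value of `cof q i` and of `dPi q` on the `i`-th line. -/
noncomputable def kap (q : Fin 4 → ℂ) (i : Fin 4) : ℂ := ∏ k ∈ Finset.univ.erase i, (q i - q k)
/-- The local correction term at the point `(q i, g)`. -/
noncomputable def Th (q : Fin 4 → ℂ) (i : Fin 4) (g : ℂ) : PP :=
  C (1 / 4) * uu * dPi q - (uu - C g) * cof q i

/-- Type (0 = I, 1 = II) of line `i` for the vector field number `s`. -/
def ty : Fin 2 → Fin 4 → Fin 2 := ![![0, 0, 1, 1], ![1, 1, 0, 0]]
def pe : Fin 2 → ℕ := ![3, 4]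
def mR : Fin 7 → ℕ := ![0, 1, 1, 1, 1, 1, 1]
def mT : Fin 7 → ℕ := ![1, 0, 0, 1, 1, 1, 1]
def mD : Fin 2 → Fin 7 → ℕ := ![![10, 3, 17, 17, 17, 17, 17], ![4, 18, 4, 18, 18, 18, 18]]
def al : Fin 2 → Fin 7 → ℕ := ![![3, 2, 3, 6, 6, 6, 6], ![3, 3, 2, 6, 6, 6, 6]]
def be : Fin 2 → Fin 7 → ℕ := ![![5, 4, 5, 8, 8, 8, 8], ![4, 5, 4, 8, 8, 8, 8]]

/-- `∏ (X - g j) ^ m j`. -/
noncomputable def rootP (g : Fin 7 → ℂ) (m : Fin 7 → ℕ) : Polynomial ℂ :=
  ∏ j, (Polynomial.X - Polynomial.C (g j)) ^ m j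

/-- The plane data of the counterexample. -/
structure Data where
  q : Fin 4 → ℂ
  g : Fin 4 → Fin 7 → ℂ
  R : PP
  T : PP
  D : Fin 2 → PP
  Ph : Fin 2 → PP
  Ps : Fin 2 → PP
  c : ℂ
  hq : Function.Injective q
  hg : ∀ i, Function.Injective (g i)
  hc : c ≠ 0
  topR : Top 6 1 R
  topT : Top 5 1 T
  lineR : ∀ i, ln (q i) ∣ R - pu (rootP (g i) mR)
  lineT : ∀ i, ln (q i) ∣ T - pu (rootP (g i) mT)
  topD : ∀ s, Top 98 1 (D s)
  multD : ∀ s i j, D s ∈ mx (q i) (g i j) ^ mD (ty s i) j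
  topPh : ∀ s, Top 40 1 (Ph s)
  topPs0 : Top 37 c (Ps 0)
  topPs1 : Top 37 (-c) (Ps 1)
  multPs : ∀ s i j, Ps s ∈ mx (q i) (g i j) ^ al (ty s i) j
  multPh : ∀ s i j, Ph s + Ps s * Th q i (g i j) ∈ mx (q i) (g i j) ^ be (ty s i) j

namespace Data
variable (d : Data)
/-- The torsion polynomial. -/
noncomputable def Tw : PP := d.Ps 0 * d.Ph 1 - d.Ps 1 * d.Ph 0
/-- Numerator of the radicand. -/
noncomputable def Nn (s : Fin 2) : PP := ∏ i, ln (d.q i) ^ pe (ty s i)
/-- Value of the vector field on `z`. -/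
noncomputable def xz (s : Fin 2) : PP := d.Ps s * Pi4 d.q
/-- Value of the vector field on `u`. -/
noncomputable def xu (s : Fin 2) : PP := d.Ph s + d.Ps s * (C (1 / 4) * uu * dPi d.q)
end Data

section field
variable {K : Type} [Field K] [Algebra ℂ K]

/-- The determinant of two derivations on two functions. -/
def Dl (v1 v2 : Derivation ℂ K K) (f g : K) : K := v1 f * v2 g - v2 f * v1 g

/-- `δ` maps the subalgebra `V` to itself. -/
def Pres (δ : Derivation ℂ K K) (V : Subalgebra ℂ K) : Prop := ∀ x ∈ V, δ x ∈ V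

/-- A finitely generated subalgebra inside `O`, stable under two derivations. -/
def Nice (v1 v2 : Derivation ℂ K K) (O : ValuationSubring K) (V : Subalgebra ℂ K) : Prop :=
  V.FG ∧ (∀ x ∈ V, x ∈ O) ∧ Pres v1 V ∧ Pres v2 V

/-- A chart containing `Y`, with fraction field `K`. -/
def Chart (v1 v2 : Derivation ℂ K K) (Y : Set K) (O : ValuationSubring K)
    (V : Subalgebra ℂ K) : Prop :=
  Nice v1 v2 O V ∧ IntermediateField.adjoin ℂ (V : Set K) = ⊤ ∧ Y ⊆ V

/-- A chart at whose centre the two derivations form a frame. -/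
def GoodChart (v1 v2 : Derivation ℂ K K) (Y : Set K) (O : ValuationSubring K) : Prop :=
  ∃ V, Chart v1 v2 Y O V ∧ ∃ f ∈ V, ∃ g ∈ V, O.valuation (Dl v1 v2 f g) = 1

/-- The function field of the counterexample with its two vector fields. -/
structure Setup (K : Type) [Field K] [Algebra ℂ K] (d : Data) where
  z : K
  u : K
  rho : Fin 2 → K
  xi : Fin 2 → Derivation ℂ K K
  indep : AlgebraicIndependent ℂ ![z, u]
  gen : IntermediateField.adjoin ℂ {z, u, rho 0, rho 1} = ⊤
  xi_z : ∀ s, xi s z = aeval ![z, u] (d.xz s)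
  xi_u : ∀ s, xi s u = aeval ![z, u] (d.xu s)
  hrho : ∀ s, rho s ^ 14 * aeval ![z, u] (d.D s) * aeval ![z, u] (d.R * d.T) ^ 42
    = aeval ![z, u] (d.Nn s)

namespace Setup
variable {d : Data} (S : Setup K d)
/-- Evaluation of polynomials in the function field. -/
noncomputable def ev : PP →ₐ[ℂ] K := aeval ![S.z, S.u]
/-- The two vector fields. -/
noncomputable def v (s : Fin 2) : Derivation ℂ K K := S.rho s • S.xi s
/-- The function that is inverted. -/
noncomputable def G : K :=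
  S.ev (d.D 0) * S.ev (d.D 1) * S.ev d.Tw / (S.ev d.R ^ 28 * S.ev d.T ^ 21)
/-- The five generators. -/
noncomputable def Y : Set K :=
  {S.ev (Pi4 d.q) / S.ev d.T, S.ev (zz * Pi4 d.q) / S.ev d.T, S.ev (uu * Pi4 d.q) / S.ev d.T,
    S.ev (Pi4 d.q) / S.ev d.R, S.ev (zz ^ 2 * Pi4 d.q) / S.ev d.R}
end Setup

end field

end Vale.Agent.P266
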